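import Vale.Agent.P204.Defs

/-!
Averaging a closed two-form over three coordinate circles: the averaged lower block is constant.
-/

namespace Vale.Agent.P204

open scoped ContDiff Matrix
open MeasureTheory intervalIntegral

/-- Integral along the segment from `x` to `x + r • v`. -/
noncomputable def seg (v : E) (r : ℝ) (f : E → ℝ) (x : E) : ℝ :=
  ∫ s in (0:ℝ)..r, f (x + s • v)

theorem seg_continuous (v : E) (r : ℝ) {f : E → ℝ} (hf : Continuous f) :
    Continuous (seg v r f) := by
  apply continuous_parametric_intervalIntegral_of_continuous'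
  simp only [Function.uncurry_def]
  fun_prop

theorem seg_comm (v w : E) (r q : ℝ) {f : E → ℝ} (hf : Continuous f) (x : E) :
    seg v r (seg w q f) x = seg w q (seg v r f) x := by
  simp only [seg]
  rw [intervalIntegral_intervalIntegral_swap]
  · simp only [add_right_comm]
  · have hc : Continuous (Function.uncurry fun a b : ℝ => f (x + a • v + b • w)) := by
      simp only [Function.uncurry_def]
      fun_prop
    exact (hc.continuousOn.integrableOn_compact (isCompact_uIcc.prod isCompact_uIcc)).mono_set
      (Set.prod_mono Set.uIoc_subset_uIcc Set.uIoc_subset_uIcc)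

theorem seg_pd (i : Fin 4) (r : ℝ) {f : E → ℝ} (hf : ContDiff ℝ ∞ f) (x : E) :
    seg (e i) r (pd i f) x = f (x + r • e i) - f x := by
  have hd : ∀ s ∈ Set.uIcc 0 r,
      HasDerivAt (fun s : ℝ => f (x + s • e i)) (pd i f (x + s • e i)) s := fun s _ =>
    ((hf.differentiable (by simp) _).hasFDerivAt).comp_hasDerivAt s
      (by simpa using ((hasDerivAt_id s).smul_const (e i)).const_add x)
  have hc : Continuous fun s : ℝ => pd i f (x + s • e i) := by
    have := hf.continuous_fderiv (by simp)
    unfold pd
    fun_prop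
  rw [seg, integral_eq_sub_of_hasDerivAt hd (hc.intervalIntegrable _ _)]
  simp

theorem pd_continuous (i : Fin 4) {f : E → ℝ} (hf : ContDiff ℝ ∞ f) : Continuous (pd i f) := by
  have := hf.continuous_fderiv (by simp)
  unfold pd
  fun_prop

/-- The average over the three last coordinates. -/
noncomputable def avg (f : E → ℝ) : E → ℝ :=
  seg (e 1) 1 (seg (e 2) 1 (seg (e 3) 1 f))

theorem avg_continuous {f : E → ℝ} (hf : Continuous f) : Continuous (avg f) :=
  seg_continuous _ _ (seg_continuous _ _ (seg_continuous _ _ hf))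

theorem avg_comm (v : E) (r : ℝ) {f : E → ℝ} (hf : Continuous f) :
    avg (seg v r f) = seg v r (avg f) := by
  have h1 : seg (e 3) 1 (seg v r f) = seg v r (seg (e 3) 1 f) := funext (seg_comm _ _ _ _ hf)
  have c3 := seg_continuous (e 3) 1 hf
  have h2 : seg (e 2) 1 (seg v r (seg (e 3) 1 f)) = seg v r (seg (e 2) 1 (seg (e 3) 1 f)) :=
    funext (seg_comm _ _ _ _ c3)
  have h3 := funext (seg_comm (e 1) v 1 r (seg_continuous (e 2) 1 c3))
  simp only [avg, h1, h2, h3]

theorem seg_zero (v : E) (r : ℝ) : seg v r (fun _ => 0) = fun _ => 0 := by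
  funext x
  simp [seg]

theorem seg_pd_periodic (k : Fin 4) {f : E → ℝ} (hf : ContDiff ℝ ∞ f)
    (hp : ∀ x, f (x + e k) = f x) : seg (e k) 1 (pd k f) = fun _ => 0 := by
  funext x
  simp [seg_pd k 1 hf x, hp x]

/-- The average of a derivative along one of the averaged circles vanishes. -/
theorem avg_pd_zero (k : Fin 4) (hk : k ≠ 0) {f : E → ℝ} (hf : ContDiff ℝ ∞ f)
    (hp : ∀ x, f (x + e k) = f x) : avg (pd k f) = fun _ => 0 := by
  have hz := seg_pd_periodic k hf hp
  have hc := pd_continuous k hf
  fin_cases k
  · simp at hk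
  · simp only [avg]
    funext x
    rw [seg_comm _ _ _ _ (seg_continuous _ _ hc)]
    rw [show seg (e 1) 1 (seg (e 3) 1 (pd _ f)) = seg (e 3) 1 (seg (e 1) 1 (pd _ f)) from
      funext (seg_comm _ _ _ _ hc)]
    simp only [Fin.mk_one] at hz ⊢
    simp [hz, seg_zero]
  · simp only [avg]
    rw [show seg (e 2) 1 (seg (e 3) 1 (pd _ f)) = seg (e 3) 1 (seg (e 2) 1 (pd _ f)) from
      funext (seg_comm _ _ _ _ hc)]
    simp only [Fin.reduceFinMk] at hz ⊢
    simp [hz, seg_zero]
  · simp only [avg, Fin.reduceFinMk] at hz ⊢
    simp [hz, seg_zero]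

theorem seg_add (v : E) (r : ℝ) {f g : E → ℝ} (hf : Continuous f) (hg : Continuous g) :
    seg v r (fun x => f x + g x) = fun x => seg v r f x + seg v r g x := by
  funext x
  simp only [seg]
  exact intervalIntegral.integral_add ((by fun_prop : Continuous _).intervalIntegrable _ _)
    ((by fun_prop : Continuous _).intervalIntegrable _ _)

theorem seg_const_mul (v : E) (r c : ℝ) (f : E → ℝ) :
    seg v r (fun x => c * f x) = fun x => c * seg v r f x := by
  funext x
  simp [seg]

theorem avg_add {f g : E → ℝ} (hf : Continuous f) (hg : Continuous g) :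
    avg (fun x => f x + g x) = fun x => avg f x + avg g x := by
  simp only [avg]
  rw [seg_add _ _ hf hg, seg_add _ _ (seg_continuous _ _ hf) (seg_continuous _ _ hg),
    seg_add _ _ (seg_continuous _ _ (seg_continuous _ _ hf))
      (seg_continuous _ _ (seg_continuous _ _ hg))]

theorem avg_const_mul (c : ℝ) (f : E → ℝ) :
    avg (fun x => c * f x) = fun x => c * avg f x := by
  simp only [avg, seg_const_mul]

theorem avg_zero : avg (fun _ => 0) = fun _ => 0 := by simp [avg, seg_zero]

theorem avg_sum {ι : Type*} (s : Finset ι) (f : ι → E → ℝ) (hf : ∀ i ∈ s, Continuous (f i)) :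
    avg (fun x => ∑ i ∈ s, f i x) = fun x => ∑ i ∈ s, avg (f i) x := by
  classical
  induction s using Finset.induction with
  | empty => simp [avg_zero]
  | @insert a s ha ih =>
    simp only [Finset.sum_insert ha]
    rw [avg_add (hf a (Finset.mem_insert_self a s))
      (continuous_finsetSum s fun i hi => hf i (Finset.mem_insert_of_mem hi)),
      ih fun i hi => hf i (Finset.mem_insert_of_mem hi)]

theorem seg_pos (v : E) {f : E → ℝ} (hf : Continuous f) (x : E)
    (h : ∀ s : ℝ, 0 < f (x + s • v)) : 0 < seg v 1 f x :=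
  intervalIntegral_pos_of_pos ((by fun_prop : Continuous _).intervalIntegrable _ _) h one_pos

theorem avg_pos {f : E → ℝ} (hf : Continuous f) (x : E)
    (h : ∀ y, y 0 = x 0 → 0 < f y) : 0 < avg f x := by
  refine seg_pos _ (seg_continuous _ _ (seg_continuous _ _ hf)) x fun a => ?_
  refine seg_pos _ (seg_continuous _ _ hf) _ fun b => ?_
  refine seg_pos _ hf _ fun c => h _ ?_
  simp [e]

/-- The averaged lower block of a closed form does not depend on the remaining coordinate. -/
theorem avg_lower_const {W : E → Matrix (Fin 4) (Fin 4) ℝ} (hW : IsClosedForm W)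
    (k l : Fin 4) (hk : k ≠ 0) (hl : l ≠ 0) (t : ℝ) :
    avg (fun x => W x k l) (t • e 0) = avg (fun x => W x k l) 0 := by
  have hs := hW.smooth
  have hp : ∀ a b i x, W (x + e i) a b = W x a b := fun a b i x => by rw [hW.periodic x i]
  have h1 : seg (e 0) t (pd 0 fun y => W y k l) =
      fun x => W (x + t • e 0) k l - W x k l := funext (seg_pd 0 t (hs k l))
  have hP : pd 0 (fun y => W y k l) = fun x =>
      (-1) * pd k (fun y => W y l 0) x + (-1) * pd l (fun y => W y 0 k) x :=
    funext fun x => by linarith [hW.closed x 0 k l]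
  have hz : avg (pd 0 fun y => W y k l) = fun _ => 0 := by
    rw [hP, avg_add ((pd_continuous k (hs l 0)).const_mul (-1))
      ((pd_continuous l (hs 0 k)).const_mul (-1)), avg_const_mul, avg_const_mul,
      avg_pd_zero k hk (hs l 0) (hp l 0 k), avg_pd_zero l hl (hs 0 k) (hp 0 k l)]
    simp
  have h2 := congrFun (avg_comm (e 0) t (pd_continuous 0 (hs k l))) 0
  rw [hz, seg_zero, h1] at h2
  have hc : Continuous fun x => W x k l := (hs k l).continuous
  have hc' : Continuous fun x => W (x + t • e 0) k l := hc.comp (by fun_prop)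
  have h3 := congrFun (avg_add hc' (hc.const_mul (-1))) 0
  have h4 : avg (fun x => W (x + t • e 0) k l) 0 = avg (fun x => W x k l) (t • e 0) := by
    simp only [avg, seg]
    simp only [zero_add]
    congr 1; funext a; congr 1; funext b; congr 1; funext c
    exact congrArg (fun z => W z k l) (by abel)
  simp only [avg_const_mul] at h3
  simp only [sub_eq_add_neg, neg_one_mul] at h2 h3
  rw [h3, h4] at h2
  linarith

end Vale.Agent.P204
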