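import Mathlib

/-!
Two-forms and almost complex structures on the four-torus, written as matrices of coefficients
in the coordinates of the universal cover.
-/

namespace Vale.Agent.P204

open scoped ContDiff Matrix

/-- Points and tangent vectors of the universal cover of the four-torus. -/
abbrev E : Type := Fin 4 → ℝ

/-- The coordinate vectors. -/
noncomputable def e (i : Fin 4) : E := Pi.single i 1

/-- The partial derivative in the coordinate direction `i`. -/
noncomputable def pd (i : Fin 4) (f : E → ℝ) (x : E) : ℝ := fderiv ℝ f x (e i)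

/-- A smooth closed two-form on the four-torus: smooth, periodic, antisymmetric coefficients
with vanishing exterior derivative. -/
structure IsClosedForm (W : E → Matrix (Fin 4) (Fin 4) ℝ) : Prop where
  smooth : ∀ k l, ContDiff ℝ ∞ (fun x => W x k l)
  periodic : ∀ x i, W (x + e i) = W x
  antisymm : ∀ x, (W x)ᵀ = -W x
  closed : ∀ x i j k,
    pd i (fun y => W y j k) x + pd j (fun y => W y k i) x + pd k (fun y => W y i j) x = 0

/-- The form `W` tames `J`: it is positive on every pair `v, J v`, `v ≠ 0`. -/
def Tames (W : E → Matrix (Fin 4) (Fin 4) ℝ) (J : E → Matrix (Fin 4) (Fin 4) ℝ) : Prop :=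
  ∀ x v, v ≠ 0 → 0 < v ⬝ᵥ (W x *ᵥ (J x *ᵥ v))

end Vale.Agent.P204
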