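import Vale.Agent.P204.Defs

/-!
For a complex structure on a four-dimensional space, the extension of a two-form on the hyperplane
`v 0 = 0` to a form invariant under the complex structure.
-/

namespace Vale.Agent.P204

open scoped Matrix

abbrev M4 : Type := Matrix (Fin 4) (Fin 4) ℝ

variable (J B : M4) (T : ℝ)

/-- The bilinear form of a matrix. -/
noncomputable def bil (M : M4) (u v : E) : ℝ := u ⬝ᵥ (M *ᵥ v)

/-- The denominator `1 + a ^ 2`. -/
noncomputable def den : ℝ := 1 + J 0 0 ^ 2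

/-- The vector `h = J e₀ - a e₀` of the hyperplane. -/
noncomputable def hvec : E := J *ᵥ e 0 - J 0 0 • e 0

/-- The coordinate along `h`. -/
noncomputable def prow : E := (-(den J)⁻¹) • (fun k => J 0 k)

/-- The coordinate along `J h`. -/
noncomputable def qrow : E := (-(den J)⁻¹) • e 0

/-- The projection onto the complex line inside the hyperplane. -/
noncomputable def lmat : M4 :=
  1 - Matrix.vecMulVec (hvec J) (prow J) - Matrix.vecMulVec (J *ᵥ hvec J) (qrow J)

/-- The row `v ↦ B (l, h)`. -/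
noncomputable def rrow : E := (lmat J)ᵀ *ᵥ (B *ᵥ hvec J)

/-- The row `v ↦ B (J l, h)`. -/
noncomputable def srow : E := (J * lmat J)ᵀ *ᵥ (B *ᵥ hvec J)

/-- The part of the extension not containing the parameter. -/
noncomputable def ext0 : M4 :=
  (lmat J)ᵀ * B * lmat J + Matrix.vecMulVec (rrow J B) (prow J)
    - Matrix.vecMulVec (srow J B) (qrow J) - Matrix.vecMulVec (prow J) (rrow J B)
    + Matrix.vecMulVec (qrow J) (srow J B)

/-- The positive semidefinite invariant form on the complementary line. -/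
noncomputable def area : M4 :=
  Matrix.vecMulVec (prow J) (qrow J) - Matrix.vecMulVec (qrow J) (prow J)

/-- The invariant extension. -/
noncomputable def ext : M4 := ext0 J B + T • area J

theorem bil_vecMulVec (a b u v : E) :
    bil (Matrix.vecMulVec a b) u v = (a ⬝ᵥ u) * (b ⬝ᵥ v) := by
  simp only [bil, Matrix.vecMulVec_mulVec, op_smul_eq_smul, dotProduct_smul, smul_eq_mul]
  rw [dotProduct_comm u a, mul_comm]

theorem bil_add (M N : M4) (u v : E) : bil (M + N) u v = bil M u v + bil N u v := by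
  simp [bil, Matrix.add_mulVec, dotProduct_add]

theorem bil_sub (M N : M4) (u v : E) : bil (M - N) u v = bil M u v - bil N u v := by
  simp [bil, Matrix.sub_mulVec, dotProduct_sub]

theorem bil_smul (c : ℝ) (M : M4) (u v : E) : bil (c • M) u v = c * bil M u v := by
  simp [bil, Matrix.smul_mulVec, dotProduct_smul]

theorem bil_conj (A B M : M4) (u v : E) :
    bil (Aᵀ * M * B) u v = bil M (A *ᵥ u) (B *ᵥ v) := by
  simp only [bil, ← Matrix.mulVec_mulVec]
  rw [Matrix.dotProduct_mulVec u Aᵀ, Matrix.vecMul_transpose]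

theorem row_dot (A : M4) (M : M4) (h v : E) :
    (Aᵀ *ᵥ (M *ᵥ h)) ⬝ᵥ v = bil M (A *ᵥ v) h := by
  rw [dotProduct_comm, Matrix.dotProduct_mulVec, Matrix.vecMul_transpose, bil]

theorem den_pos : 0 < den J := by unfold den; positivity

theorem hvec_zero : hvec J 0 = 0 := by
  simp [hvec, e, Matrix.mulVec_single]

variable {J}

theorem mulVec_J (hJ : J * J = -1) (v : E) : J *ᵥ (J *ᵥ v) = -v := by
  rw [Matrix.mulVec_mulVec, hJ, Matrix.neg_mulVec, Matrix.one_mulVec]

theorem Jhvec_eq (hJ : J * J = -1) : J *ᵥ hvec J = -e 0 - J 0 0 • (J *ᵥ e 0) := by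
  rw [hvec, Matrix.mulVec_sub, Matrix.mulVec_smul, mulVec_J hJ]

theorem Jhvec_zero (hJ : J * J = -1) : (J *ᵥ hvec J) 0 = -den J := by
  rw [Jhvec_eq hJ]
  simp [e, Matrix.mulVec_single, den]
  ring

theorem pdot (v : E) : prow J ⬝ᵥ v = -(den J)⁻¹ * (J *ᵥ v) 0 := by
  simp [prow, Matrix.mulVec, dotProduct, Finset.mul_sum, mul_assoc]

theorem qdot (v : E) : qrow J ⬝ᵥ v = -(den J)⁻¹ * v 0 := by
  simp [qrow, e, smul_dotProduct]

theorem pdot_J (hJ : J * J = -1) (v : E) : prow J ⬝ᵥ (J *ᵥ v) = -(qrow J ⬝ᵥ v) := by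
  rw [pdot, qdot, mulVec_J hJ]
  simp

theorem qdot_J (v : E) : qrow J ⬝ᵥ (J *ᵥ v) = prow J ⬝ᵥ v := by
  rw [pdot, qdot]

theorem lmat_mulVec (v : E) : lmat J *ᵥ v =
    v - (prow J ⬝ᵥ v) • hvec J - (qrow J ⬝ᵥ v) • (J *ᵥ hvec J) := by
  simp only [lmat, Matrix.sub_mulVec, Matrix.one_mulVec, Matrix.vecMulVec_mulVec, op_smul_eq_smul]

theorem lmat_J (hJ : J * J = -1) (v : E) : lmat J *ᵥ (J *ᵥ v) = J *ᵥ (lmat J *ᵥ v) := by
  rw [lmat_mulVec, lmat_mulVec, pdot_J hJ, qdot_J, Matrix.mulVec_sub, Matrix.mulVec_sub,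
    Matrix.mulVec_smul, Matrix.mulVec_smul, mulVec_J hJ (hvec J)]
  module

/-- The complex line of the hyperplane. -/
def InLine (J : M4) (l : E) : Prop := l 0 = 0 ∧ (J *ᵥ l) 0 = 0

theorem lmat_inLine (hJ : J * J = -1) (v : E) : InLine J (lmat J *ᵥ v) := by
  have hd := (den_pos J).ne'
  have h0 : ∀ w, (lmat J *ᵥ w) 0 = 0 := fun w => by
    rw [lmat_mulVec]
    simp only [Pi.sub_apply, Pi.smul_apply, smul_eq_mul, hvec_zero, Jhvec_zero hJ, qdot]
    field_simp
    ring
  exact ⟨h0 v, by rw [← lmat_J hJ]; exact h0 _⟩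

theorem inLine_rotate (hJ : J * J = -1) (hB : ∀ u v, bil B u v = -bil B v u) (l m : E)
    (hl : InLine J l) (hm : InLine J m) : bil B (J *ᵥ l) (J *ᵥ m) = bil B l m := by
  by_cases hl0 : l = 0
  · subst hl0
    simp [bil]
  let S : Submodule ℝ E :=
    { carrier := {v | InLine J v}
      zero_mem' := by simp [InLine]
      add_mem' := fun {a b} ha hb => by
        constructor
        · simp [ha.1, hb.1]
        · rw [Matrix.mulVec_add]; simp [ha.2, hb.2]
      smul_mem' := fun c a ha => by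
        constructor
        · simp [ha.1]
        · rw [Matrix.mulVec_smul]; simp [ha.2] }
  let φ : E →ₗ[ℝ] ℝ × ℝ :=
    { toFun := fun v => (v 0, (J *ᵥ v) 0)
      map_add' := fun a b => by simp [Matrix.mulVec_add]
      map_smul' := fun c a => by simp [Matrix.mulVec_smul] }
  have hsurj : Function.Surjective φ := fun y => by
    refine ⟨-(y.2 / den J) • hvec J - (y.1 / den J) • (J *ᵥ hvec J), ?_⟩
    have hd := (den_pos J).ne'
    refine Prod.ext ?_ ?_
    · simp [φ, hvec_zero, Jhvec_zero hJ, hd]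
    · simp [φ, Matrix.mulVec_sub, Matrix.mulVec_smul, Matrix.mulVec_neg,
        mulVec_J hJ, hvec_zero, Jhvec_zero hJ, hd]
  have hker : φ.ker = S := by
    ext v
    simp [φ, S, InLine, LinearMap.mem_ker]
  have hdim : Module.finrank ℝ S = 2 := by
    have h := φ.finrank_range_add_finrank_ker
    rw [LinearMap.range_eq_top.mpr hsurj, hker, finrank_top] at h
    simp [Module.finrank_prod] at h
    omega
  have hJl : InLine J (J *ᵥ l) := ⟨hl.2, by rw [mulVec_J hJ]; simp [hl.1]⟩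
  let b : Fin 2 → S := ![⟨l, hl⟩, ⟨J *ᵥ l, hJl⟩]
  have hind : LinearIndependent ℝ b := by
    rw [LinearIndependent.pair_iff]
    intro x y hxy
    have h1 : x • l + y • (J *ᵥ l) = 0 := by simpa using congrArg Subtype.val hxy
    have h2 : x • (J *ᵥ l) - y • l = 0 := by
      have := congrArg (J *ᵥ ·) h1
      simpa [Matrix.mulVec_add, Matrix.mulVec_smul, mulVec_J hJ, sub_eq_add_neg] using this
    have h3 : (x ^ 2 + y ^ 2) • l = 0 := by
      have : x • (x • l + y • (J *ᵥ l)) - y • (x • (J *ᵥ l) - y • l) = 0 := by simp [h1, h2]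
      rw [← this]
      module
    have h4 := (smul_eq_zero.mp h3).resolve_right hl0
    constructor <;> nlinarith [sq_nonneg x, sq_nonneg y]
  have hspan := hind.span_eq_top_of_card_eq_finrank (by simp [hdim])
  have hm' : (⟨m, hm⟩ : S) ∈ Submodule.span ℝ (Set.range b) := by rw [hspan]; trivial
  obtain ⟨c, hc⟩ := (Submodule.mem_span_range_iff_exists_fun ℝ).mp hm'
  have hm2 : m = c 0 • l + c 1 • (J *ᵥ l) := by
    have := congrArg Subtype.val hc
    simpa [Fin.sum_univ_two, b] using this.symm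
  subst hm2
  have hll : bil B l l = 0 := by linarith [hB l l]
  have hJJ : bil B (J *ᵥ l) (J *ᵥ l) = 0 := by linarith [hB (J *ᵥ l) (J *ᵥ l)]
  simp only [bil, Matrix.mulVec_add, Matrix.mulVec_smul, mulVec_J hJ, Matrix.mulVec_neg,
    dotProduct_add, dotProduct_smul, dotProduct_neg, smul_eq_mul] at hll hJJ ⊢
  have := hB (J *ᵥ l) l
  simp only [bil] at this
  rw [hll, hJJ, this]
  ring

variable {B} {T}

theorem bil_ext (u v : E) : bil (ext J B T) u v =
    bil B (lmat J *ᵥ u) (lmat J *ᵥ v)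
      + bil B (lmat J *ᵥ u) (hvec J) * (prow J ⬝ᵥ v)
      - bil B (J *ᵥ (lmat J *ᵥ u)) (hvec J) * (qrow J ⬝ᵥ v)
      - (prow J ⬝ᵥ u) * bil B (lmat J *ᵥ v) (hvec J)
      + (qrow J ⬝ᵥ u) * bil B (J *ᵥ (lmat J *ᵥ v)) (hvec J)
      + T * ((prow J ⬝ᵥ u) * (qrow J ⬝ᵥ v) - (qrow J ⬝ᵥ u) * (prow J ⬝ᵥ v)) := by
  simp only [ext, ext0, area, bil_add, bil_sub, bil_smul, bil_vecMulVec, bil_conj, rrow, srow,
    row_dot]
  simp only [← Matrix.mulVec_mulVec]

theorem ext_antisymm (hB : ∀ u v, bil B u v = -bil B v u) (u v : E) :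
    bil (ext J B T) u v = -bil (ext J B T) v u := by
  rw [bil_ext, bil_ext, hB (lmat J *ᵥ u) (lmat J *ᵥ v)]
  ring

theorem ext_invariant (hJ : J * J = -1) (hB : ∀ u v, bil B u v = -bil B v u) (u v : E) :
    bil (ext J B T) (J *ᵥ u) (J *ᵥ v) = bil (ext J B T) u v := by
  rw [bil_ext, bil_ext]
  simp only [pdot_J hJ, qdot_J, lmat_J hJ, mulVec_J hJ]
  rw [inLine_rotate B hJ hB _ _ (lmat_inLine hJ u) (lmat_inLine hJ v)]
  simp only [bil, neg_dotProduct]
  ring

theorem ext_lower (hB : ∀ u v, bil B u v = -bil B v u) (u v : E) (hu : u 0 = 0) (hv : v 0 = 0) :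
    bil (ext J B T) u v = bil B u v := by
  have hh : bil B (hvec J) (hvec J) = 0 := by linarith [hB (hvec J) (hvec J)]
  have hq : ∀ w : E, w 0 = 0 → qrow J ⬝ᵥ w = 0 := fun w hw => by simp [qdot, hw]
  have hl : ∀ w : E, w 0 = 0 → lmat J *ᵥ w = w - (prow J ⬝ᵥ w) • hvec J := fun w hw => by
    simp [lmat_mulVec, hq w hw]
  have hsw := hB (hvec J) v
  rw [bil_ext, hq u hu, hq v hv, hl u hu, hl v hv]
  simp only [bil, Matrix.mulVec_sub, Matrix.mulVec_smul, sub_dotProduct, smul_dotProduct,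
    dotProduct_sub, dotProduct_smul, smul_eq_mul] at hh hsw ⊢
  rw [hh, hsw]
  ring

end Vale.Agent.P204
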