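import Vale.Agent.P204.Avg
import Vale.Agent.P204.Hermitian

/-!
An almost complex structure on the four-torus depending on one coordinate that is tamed by some
closed two-form is compatible with a closed two-form.
-/

namespace Vale.Agent.P204

open scoped ContDiff Matrix

/-- The averaged lower block. -/
noncomputable def lowBlock (W : E → M4) : M4 :=
  fun k l => if k = 0 ∨ l = 0 then 0 else avg (fun x => W x k l) 0

theorem bil_eq_sum (M : M4) (u v : E) : bil M u v = ∑ k, ∑ l, (u k * v l) * M k l := by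
  simp only [bil, dotProduct, Matrix.mulVec, Finset.mul_sum]
  exact Finset.sum_congr rfl fun k _ => Finset.sum_congr rfl fun l _ => by ring

theorem lowBlock_skew {W : E → M4} (hW : IsClosedForm W) (u v : E) :
    bil (lowBlock W) u v = -bil (lowBlock W) v u := by
  have h : ∀ k l, lowBlock W k l = -lowBlock W l k := by
    intro k l
    simp only [lowBlock, or_comm (a := k = 0) (b := l = 0)]
    split_ifs
    · simp
    · have : (fun x => W x k l) = fun x => (-1 : ℝ) * W x l k := by
        funext x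
        have := congrFun (congrFun (hW.antisymm x) l) k
        simp only [Matrix.transpose_apply, Matrix.neg_apply] at this
        linarith
      rw [this, avg_const_mul]
      ring
  rw [bil_eq_sum, bil_eq_sum, Finset.sum_comm, ← Finset.sum_neg_distrib]
  refine Finset.sum_congr rfl fun k _ => ?_
  rw [← Finset.sum_neg_distrib]
  exact Finset.sum_congr rfl fun l _ => by rw [h l k]; ring

theorem lowBlock_pos {W : E → M4} (hW : IsClosedForm W) {J : ℝ → M4}
    (htame : Tames W (fun x => J (x 0))) (t : ℝ) (l : E) (hl : InLine (J t) l) (hl0 : l ≠ 0) :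
    0 < bil (lowBlock W) l (J t *ᵥ l) := by
  set m := J t *ᵥ l with hm
  have hc : ∀ k i, Continuous fun x => (l k * m i) * W x k i := fun k i =>
    (hW.smooth k i).continuous.const_mul _
  have h1 : bil (lowBlock W) l m = avg (fun x => bil (W x) l m) (t • e 0) := by
    simp only [bil_eq_sum]
    rw [avg_sum _ _ fun k _ => continuous_finsetSum _ fun i _ => hc k i]
    simp only [avg_sum _ _ fun i _ => hc _ i, avg_const_mul]
    refine Finset.sum_congr rfl fun k _ => Finset.sum_congr rfl fun i _ => ?_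
    by_cases hk : k = 0
    · subst hk; simp [hl.1]
    by_cases hi : i = 0
    · subst hi; simp [hm, hl.2]
    simp only [lowBlock, hk, hi, or_self, if_false]
    rw [avg_lower_const hW k i hk hi t]
  rw [h1]
  refine avg_pos ?_ _ fun y hy => ?_
  · simp only [bil_eq_sum]
    exact continuous_finsetSum _ fun k _ => continuous_finsetSum _ fun i _ => hc k i
  · have hy0 : y 0 = t := by simpa [e] using hy
    have := htame y l hl0
    simp only [hy0] at this
    exact this

theorem exists_coeff {X : Type*} [TopologicalSpace X] [T2Space X] {K : Set X} (hK : IsCompact K)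
    {f g : X → ℝ} (hf : Continuous f) (hg : Continuous g) (hg0 : ∀ x, 0 ≤ g x)
    (hpos : ∀ x ∈ K, g x = 0 → 0 < f x) : ∃ T, ∀ x ∈ K, 0 < f x + T * g x := by
  set K0 := K ∩ {x | f x ≤ 0} with hK0d
  have hK0 : IsCompact K0 := hK.inter_right (isClosed_le hf continuous_const)
  rcases K0.eq_empty_or_nonempty with h | h
  · refine ⟨0, fun x hx => ?_⟩
    by_contra hc
    exact (h ▸ Set.notMem_empty x) ⟨hx, by simpa using hc⟩
  obtain ⟨x0, hx0, hm⟩ := hK0.exists_isMinOn h hg.continuousOn
  obtain ⟨x1, hx1, hM⟩ := hK0.exists_isMinOn h hf.continuousOn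
  have hgp : 0 < g x0 := lt_of_le_of_ne (hg0 _) fun hc =>
    absurd (hpos x0 hx0.1 hc.symm) (not_lt.mpr hx0.2)
  have hT : 0 ≤ -f x1 / g x0 + 1 := by
    have := div_nonneg (neg_nonneg.mpr hx1.2) hgp.le
    linarith
  refine ⟨-f x1 / g x0 + 1, fun x hx => ?_⟩
  by_cases hfx : f x ≤ 0
  · have h2 : g x0 ≤ g x := hm ⟨hx, hfx⟩
    have h3 : f x1 ≤ f x := hM ⟨hx, hfx⟩
    have h4 : (-f x1 / g x0 + 1) * g x0 ≤ (-f x1 / g x0 + 1) * g x :=
      mul_le_mul_of_nonneg_left h2 hT
    have h5 : (-f x1 / g x0 + 1) * g x0 = -f x1 + g x0 := by field_simp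
    linarith
  · have := mul_nonneg hT (hg0 x)
    linarith [not_le.mp hfx]

theorem area_J {J : M4} (hJ : J * J = -1) (v : E) :
    bil (area J) v (J *ᵥ v) = (prow J ⬝ᵥ v) ^ 2 + (qrow J ⬝ᵥ v) ^ 2 := by
  simp only [area, bil_sub, bil_vecMulVec, pdot_J hJ, qdot_J]
  ring

theorem line_of_area {J : M4} (hJ : J * J = -1) {v : E}
    (h : (prow J ⬝ᵥ v) ^ 2 + (qrow J ⬝ᵥ v) ^ 2 = 0) : InLine J v := by
  have hp : prow J ⬝ᵥ v = 0 := by nlinarith [sq_nonneg (qrow J ⬝ᵥ v)]
  have hq : qrow J ⬝ᵥ v = 0 := by nlinarith [sq_nonneg (prow J ⬝ᵥ v)]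
  have := lmat_inLine hJ v
  rwa [lmat_mulVec, hp, hq, zero_smul, zero_smul, sub_zero, sub_zero] at this

theorem smooth_ext (B : M4) (T : ℝ) {J : ℝ → M4} (hJ : ∀ i j, ContDiff ℝ ∞ fun t => J t i j)
    (k l : Fin 4) : ContDiff ℝ ∞ fun t => ext (J t) B T k l := by
  have hd : ContDiff ℝ ∞ fun t => (den (J t))⁻¹ :=
    ContDiff.inv (by unfold den; exact contDiff_const.add ((hJ 0 0).pow 2))
      fun t => (den_pos (J t)).ne'
  have hh : ∀ i, ContDiff ℝ ∞ fun t => hvec (J t) i := fun i => by
    simp only [hvec, Pi.sub_apply, Pi.smul_apply, smul_eq_mul, Matrix.mulVec, dotProduct]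
    fun_prop
  have hp : ∀ i, ContDiff ℝ ∞ fun t => prow (J t) i := fun i => by
    simp only [prow, Pi.smul_apply, smul_eq_mul]
    exact hd.neg.mul (hJ 0 i)
  have hq : ∀ i, ContDiff ℝ ∞ fun t => qrow (J t) i := fun i => by
    simp only [qrow, Pi.smul_apply, smul_eq_mul]
    exact hd.neg.mul contDiff_const
  have hJh : ∀ i, ContDiff ℝ ∞ fun t => (J t *ᵥ hvec (J t)) i := fun i => by
    simp only [Matrix.mulVec, dotProduct]
    fun_prop
  have hl : ∀ i j, ContDiff ℝ ∞ fun t => lmat (J t) i j := fun i j => by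
    simp only [lmat, Matrix.sub_apply, Matrix.vecMulVec_apply]
    fun_prop
  have hr : ∀ i, ContDiff ℝ ∞ fun t => rrow (J t) B i := fun i => by
    simp only [rrow, Matrix.mulVec, dotProduct, Matrix.transpose_apply]
    fun_prop
  have hs : ∀ i, ContDiff ℝ ∞ fun t => srow (J t) B i := fun i => by
    simp only [srow, Matrix.mulVec, dotProduct, Matrix.transpose_apply, Matrix.mul_apply]
    fun_prop
  simp only [ext, ext0, area, Matrix.add_apply, Matrix.sub_apply, Matrix.smul_apply,
    Matrix.vecMulVec_apply, Matrix.mul_apply, Matrix.transpose_apply, smul_eq_mul]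
  fun_prop

theorem bil_single (M : M4) (i j : Fin 4) : bil M (e i) (e j) = M i j := by
  simp [bil, e, Matrix.mulVec_single]

theorem closed_ext {J : ℝ → M4} {B : M4} {T : ℝ} (hB : ∀ u v, bil B u v = -bil B v u)
    (hsm : ∀ b c, ContDiff ℝ ∞ fun t => ext (J t) B T b c) (x : E) (i j k : Fin 4) :
    pd i (fun y => ext (J (y 0)) B T j k) x + pd j (fun y => ext (J (y 0)) B T k i) x
      + pd k (fun y => ext (J (y 0)) B T i j) x = 0 := by
  have hpd : ∀ a b c, a ≠ 0 → pd a (fun y => ext (J (y 0)) B T b c) x = 0 := by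
    intro a b c ha
    have h1 := ((hsm b c).differentiable (by simp) (x 0)).hasFDerivAt.comp x
      (hasFDerivAt_apply (𝕜 := ℝ) (F' := fun _ : Fin 4 => ℝ) 0 x)
    have h2 : HasFDerivAt (fun y : E => ext (J (y 0)) B T b c) _ x := h1
    rw [pd, h2.fderiv]
    simp [e, Pi.single_eq_of_ne (Ne.symm ha)]
  have hlow : ∀ a b c, b ≠ 0 → c ≠ 0 → pd a (fun y => ext (J (y 0)) B T b c) x = 0 := by
    intro a b c hb hc
    have : (fun y : E => ext (J (y 0)) B T b c) = fun _ => B b c := by
      funext y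
      rw [← bil_single (ext (J (y 0)) B T) b c, ← bil_single B b c]
      exact ext_lower hB _ _ (by simp [e, Pi.single_eq_of_ne (Ne.symm hb)])
        (by simp [e, Pi.single_eq_of_ne (Ne.symm hc)])
    simp [pd, this]
  have hanti : ∀ a b c, pd a (fun y => ext (J (y 0)) B T b c) x =
      -pd a (fun y => ext (J (y 0)) B T c b) x := by
    intro a b c
    have : (fun y : E => ext (J (y 0)) B T b c) = fun y => -ext (J (y 0)) B T c b := by
      funext y
      rw [← bil_single (ext (J (y 0)) B T) b c, ← bil_single (ext (J (y 0)) B T) c b]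
      exact ext_antisymm hB _ _
    simp only [pd, this, fderiv_fun_neg, neg_apply]
  have hdiag : ∀ a b, pd a (fun y => ext (J (y 0)) B T b b) x = 0 := fun a b => by
    linarith [hanti a b b]
  by_cases hi : i = 0
  · by_cases hj : j = 0
    · subst hi; subst hj
      rw [hdiag, hanti 0 k 0]
      ring
    · by_cases hk : k = 0
      · subst hi; subst hk
        rw [hdiag, hanti 0 j 0]
        ring
      · rw [hlow i j k hj hk, hpd j k i hj, hpd k i j hk]
        ring
  · by_cases hj : j = 0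
    · by_cases hk : k = 0
      · subst hj; subst hk
        rw [hdiag, hanti 0 0 i]
        ring
      · rw [hlow j k i hk hi, hpd i j k hi, hpd k i j hk]
        ring
    · rw [hpd i j k hi, hpd j k i hj, hlow k i j hi hj]
      ring

theorem compatible_of_tamed {J : ℝ → M4} (hs : ∀ i j, ContDiff ℝ ∞ fun t => J t i j)
    (hp : ∀ t, J (t + 1) = J t) (hJ : ∀ t, J t * J t = -1) {W : E → M4} (hW : IsClosedForm W)
    (htame : Tames W (fun x => J (x 0))) :
    ∃ Ω, IsClosedForm Ω ∧ Tames Ω (fun x => J (x 0)) ∧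
      ∀ x, (J (x 0))ᵀ * Ω x * J (x 0) = Ω x := by
  set B := lowBlock W with hBd
  have hB := lowBlock_skew hW
  have hsm : ∀ T k l, ContDiff ℝ ∞ fun t => ext (J t) B T k l := fun T => smooth_ext B T hs
  let F : ℝ × E → ℝ := fun z => bil (ext (J z.1) B 0) z.2 (J z.1 *ᵥ z.2)
  let G : ℝ × E → ℝ := fun z => (prow (J z.1) ⬝ᵥ z.2) ^ 2 + (qrow (J z.1) ⬝ᵥ z.2) ^ 2
  have hsplit : ∀ T z, bil (ext (J z.1) B T) z.2 (J z.1 *ᵥ z.2) = F z + T * G z := by
    intro T z
    simp only [F, G, ← area_J (hJ z.1), ext, bil_add, bil_smul, zero_smul, add_zero]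
  have hFT : ∀ T, Continuous fun z : ℝ × E => bil (ext (J z.1) B T) z.2 (J z.1 *ᵥ z.2) := by
    intro T
    have h1 : ∀ k l, Continuous fun z : ℝ × E => ext (J z.1) B T k l := fun k l =>
      (hsm T k l).continuous.comp continuous_fst
    have h2 : ∀ k l, Continuous fun z : ℝ × E => J z.1 k l := fun k l =>
      (hs k l).continuous.comp continuous_fst
    simp only [bil, Matrix.mulVec, dotProduct]
    fun_prop
  have hG : Continuous G := by
    have h := (hFT 1).sub (hFT 0)
    convert h using 1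
    funext z
    simp [hsplit]
  have hline : ∀ z : ℝ × E, G z = 0 → z.2 ≠ 0 → 0 < F z := by
    intro z hz hz0
    have hl := line_of_area (hJ z.1) hz
    have := lowBlock_pos hW htame z.1 z.2 hl hz0
    rwa [← ext_lower (T := 0) hB z.2 _ hl.1 hl.2] at this
  obtain ⟨T, hT⟩ := exists_coeff (K := Set.Icc (0:ℝ) 1 ×ˢ Metric.sphere (0:E) 1)
    (isCompact_Icc.prod (isCompact_sphere _ _)) (hFT 0) hG (fun z => by positivity)
    fun z hz hG0 => hline z hG0 (by
      have := (Set.mem_prod.mp hz).2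
      intro h
      simp [h] at this)
  have hper : ∀ (t : ℝ) (n : ℤ), J (t + n) = J t := fun t n => by
    simpa using (Function.Periodic.int_mul (f := J) (c := 1) hp n) t
  refine ⟨fun x => ext (J (x 0)) B T, ⟨?_, ?_, ?_, ?_⟩, ?_, ?_⟩
  · exact fun k l => (hsm T k l).comp (contDiff_apply ℝ ℝ 0)
  · intro x i
    show ext (J ((x + e i) 0)) B T = _
    by_cases hi : i = 0
    · subst hi; simp [e, hp]
    · simp [e, Pi.single_eq_of_ne (Ne.symm hi)]
  · intro x
    ext i j
    show ext (J (x 0)) B T j i = -ext (J (x 0)) B T i j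
    rw [← bil_single (ext (J (x 0)) B T) j i, ← bil_single (ext (J (x 0)) B T) i j]
    exact ext_antisymm hB _ _
  · exact fun x i j k => closed_ext hB (fun b c => hsm T b c) x i j k
  · intro x v hv
    show 0 < bil (ext (J (x 0)) B T) v (J (x 0) *ᵥ v)
    set t := x 0 - (⌊x 0⌋ : ℤ) with ht
    have hJt : J (x 0) = J t := by
      have := hper t ⌊x 0⌋
      rwa [ht, sub_add_cancel, ← ht] at this
    rw [hJt]
    have hn : 0 < ‖v‖ := norm_pos_iff.mpr hv
    have hz : ((t, ‖v‖⁻¹ • v) : ℝ × E) ∈ Set.Icc (0:ℝ) 1 ×ˢ Metric.sphere (0:E) 1 := by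
      refine ⟨⟨?_, ?_⟩, ?_⟩
      · simp [ht]
      · have := Int.lt_floor_add_one (x 0)
        simp only [ht]
        linarith
      · rw [mem_sphere_zero_iff_norm, norm_smul, norm_inv, norm_norm, inv_mul_cancel₀ hn.ne']
    have h1 := hT _ hz
    rw [← hsplit T (t, ‖v‖⁻¹ • v)] at h1
    simp only [bil, Matrix.mulVec_smul, smul_dotProduct, dotProduct_smul, smul_eq_mul] at h1
    have h2 := inv_pos.mpr hn
    exact (mul_pos_iff_of_pos_left h2).mp ((mul_pos_iff_of_pos_left h2).mp h1)
  · intro x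
    show (J (x 0))ᵀ * ext (J (x 0)) B T * J (x 0) = ext (J (x 0)) B T
    ext i j
    rw [← bil_single ((J (x 0))ᵀ * ext (J (x 0)) B T * J (x 0)) i j,
      ← bil_single (ext (J (x 0)) B T) i j, bil_conj, ext_invariant (hJ (x 0)) hB]

end Vale.Agent.P204
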